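import Vale.Agent.P147.Model

/-! Internal definitions: finite paths are lists of steps, all sums are in `ℝ≥0∞`. -/

namespace Vale.Agent.P147

open MeasureTheory
open scoped ENNReal Classical

abbrev V (d : ℕ) := Fin d → ℤ
abbrev Pa (d : ℕ) := List (St d)

variable {d : ℕ}

/-- total displacement -/
def disp (l : Pa d) : V d := (l.map vec).sum

/-- departure sites of the path `l` started at `x` -/
def dep : V d → Pa d → Finset (V d)
  | _, [] => ∅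
  | x, e :: l => insert x (dep (x + vec e) l)

/-- quenched weight -/
noncomputable def q (ω : V d → St d → ℝ) : V d → Pa d → ℝ≥0∞
  | _, [] => 1
  | x, e :: l => ENNReal.ofReal (ω x e) * q ω (x + vec e) l

noncomputable def env (μ : Measure (St d → ℝ)) : Measure (V d → St d → ℝ) :=
  Measure.infinitePi fun _ : V d => μ

/-- annealed weight -/
noncomputable def w (μ : Measure (St d → ℝ)) (l : Pa d) : ℝ≥0∞ := ∫⁻ ω, q ω 0 l ∂env μ

def SubSt (ω : V d → St d → ℝ) : Prop := ∀ x, ∑ e, ENNReal.ofReal (ω x e) ≤ 1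

/-- no member is a proper initial segment of another one -/
def PF (A : Pa d → Prop) : Prop := ∀ a r, A a → A (a ++ r) → r = []

/-- integer level -/
def lev (ℓ x : V d) : ℤ := ∑ i, ℓ i * x i

def Top (ℓ : V d) (lam : ℤ) (i0 : Fin d) : Prop := 0 < lam ∧ (∀ i, |ℓ i| ≤ lam) ∧ |ℓ i0| = lam

/-- bridge of height `h`: never below the start, stopped at the first passage of level `h` -/
def Br (ℓ : V d) (h : ℤ) (l : Pa d) : Prop :=
  (∀ y ∈ dep 0 l, 0 ≤ lev ℓ y ∧ lev ℓ y < h) ∧ h ≤ lev ℓ (disp l)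

/-- number of departure sites -/
noncomputable def sz (l : Pa d) : ℝ≥0∞ := ((dep 0 l).card : ℝ≥0∞)

/-- weight of bridges with at most `M` departure sites -/
noncomputable def cb (μ : Measure (St d → ℝ)) (ℓ : V d) (M : ℝ≥0∞) (h : ℤ) (l : Pa d) : ℝ≥0∞ :=
  if Br ℓ h l ∧ sz l ≤ M then w μ l else 0

/-- mass of all bridges of height `h` -/
noncomputable def U (μ : Measure (St d → ℝ)) (ℓ : V d) (h : ℤ) : ℝ≥0∞ :=
  ∑' l, if Br ℓ h l then w μ l else 0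

/-- capped bridges of every height have mass at least `η` (take `cap = ⊤` for no cap) -/
def Thin (μ : Measure (St d → ℝ)) (ℓ : V d) (cap : ℤ → ℝ≥0∞) (η : ℝ≥0∞) : Prop :=
  η ≠ 0 ∧ Monotone cap ∧ (∀ h : ℤ, ENNReal.ofReal h ≤ cap h) ∧
    ∀ h : ℤ, η ≤ ∑' l, cb μ ℓ (cap h) h l

/-- sub-weight carried by bridges of height `h` -/
def Sub (μ : Measure (St d → ℝ)) (ℓ : V d) (h : ℤ) (m : Pa d → ℝ≥0∞) : Prop :=
  ∀ l, m l ≤ w μ l ∧ (m l ≠ 0 → Br ℓ h l)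

def Capd (m : Pa d → ℝ≥0∞) (M : ℝ≥0∞) : Prop := ∀ l, m l ≠ 0 → sz l ≤ M

/-- concatenation; the second weight may depend on the level gained by the first piece -/
noncomputable def star (ℓ : V d) (m₁ : Pa d → ℝ≥0∞) (m₂ : ℤ → Pa d → ℝ≥0∞) (l : Pa d) : ℝ≥0∞ :=
  ∑' p : Pa d × Pa d, if p.1 ++ p.2 = l then m₁ p.1 * m₂ (lev ℓ (disp p.1)) p.2 else 0

noncomputable def dlt (z : V d) : ℝ≥0∞ := if z = 0 then 1 else 0

noncomputable def conv (ν₁ ν₂ : V d → ℝ≥0∞) (z : V d) : ℝ≥0∞ := ∑' y, ν₁ y * ν₂ (z - y)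

noncomputable def cpow (π : V d → ℝ≥0∞) : ℕ → V d → ℝ≥0∞
  | 0 => dlt
  | k + 1 => conv π (cpow π k)

/-- uniform law on `0, v, ..., (r-1) v` -/
noncomputable def unif (v : V d) (r : ℕ) (z : V d) : ℝ≥0∞ :=
  ∑ i ∈ Finset.range r, if z = (i : ℤ) • v then (r : ℝ≥0∞)⁻¹ else 0

/-- the endpoint law of `m` is dominated by averages against `ν`, up to an error `ε` -/
def Sm (ℓ : V d) (m : Pa d → ℝ≥0∞) (ν : V d → ℝ≥0∞) (ε : ℝ≥0∞) : Prop :=
  (∀ z, ν z ≠ 0 → lev ℓ z = 0) ∧ ∑' z, ν z ≤ 1 ∧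
    ∀ F : V d → ℝ≥0∞, (∀ y, F y ≤ 1) → ∀ (x : V d) (B : ℝ≥0∞),
      (∀ y, ∑' z, ν z * F (y + z) ≤ B) → ∑' l, m l * F (x + disp l) ≤ B + ε

/-- normalised displacement law of a pattern family, recentred at `d0` -/
noncomputable def patLaw (μ : Measure (St d → ℝ)) (Pat : Pa d → Prop) (d0 : V d) (z : V d) :
    ℝ≥0∞ :=
  (∑' σ, if Pat σ then w μ σ else 0)⁻¹ * ∑' σ, if Pat σ ∧ disp σ = d0 + z then w μ σ else 0

/-- the up-path `β` from `0` and the path `γ` from `c` share a departure site -/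
def Hit (β : Pa d) (c : V d) (γ : Pa d) : Prop := ∃ x ∈ dep 0 β, x ∈ dep c γ

/-- mass of the hits in one window entered with offset `v` -/
noncomputable def loss (ℓ : V d) (lam : ℤ) (mX : Pa d → ℝ≥0∞) (mY : ℤ → Pa d → ℝ≥0∞) (v : V d) :
    ℝ≥0∞ :=
  if -lam ≤ lev ℓ v ∧ lev ℓ v < 0 then
    ∑' β, mX β * ∑' γ, mY (lev ℓ (v + disp β) + 1) γ * (if Hit β (v + disp β) γ then 1 else 0)
  else 0

/-- bridges of heights `n + O(1)` end in boxes of radius `√(K n)` with mass at least `c` -/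
def Tight (μ : Measure (St d → ℝ)) (ℓ : V d) : Prop :=
  ∃ (K C0 n1 : ℕ) (c : ℝ≥0∞), c ≠ 0 ∧ ∀ n : ℕ, n1 ≤ n → ∃ (h : ℤ) (a : V d),
    (n : ℤ) ≤ h ∧ h ≤ n + C0 ∧
      c ≤ ∑' l, if Br ℓ h l ∧ ∀ i, (disp l i - a i) ^ 2 ≤ K * n then w μ l else 0

end Vale.Agent.P147
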